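import Vale.Agent.P144Z.FM.Early2

/-!
The limit of the coefficient of the energy sources.
-/

namespace Vale.Agent.P144Z.FM

open Finset Matrix Filter Topology

theorem enSrc_ok {M : ℕ} (y : Tor M) (i : Fin 2) : (enSrc y i).Ok where
  zero := by simp [enSrc]
  dep n n' h := by
    change sgn _ = sgn _
    rw [h ((0, 0), i) (by simp [enSrc]) (by simp [enSrc])]
  bd n := by
    change |sgn _| ≤ 1
    unfold sgn; split_ifs <;> simp
  en _ := ⟨rfl, rfl⟩

theorem geo1_ok (M : ℕ) [NeZero M] (y : Tor M) (i : Fin 2) (J : ℕ) :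
    (geo1 M 1 (enSrc y i) J).Ok := ⟨fun _ => Or.inl rfl, fun _ => enSrc_ok y i⟩

theorem flux_one {M : ℕ} (f : Tor M) : flux (1 : Gauge M) f = 1 := by simp [flux]

theorem flux_eq_one {M : ℕ} {A : Gauge M} (hA : IsSign A) {f : Tor M} (h : flux A f ≠ -1) :
    flux A f = 1 := by
  unfold flux at h ⊢
  rcases hA (f, 0) with h1 | h1 <;> rcases hA (f + uv M 0, 1) with h2 | h2 <;>
    rcases hA (f + uv M 1, 0) with h3 | h3 <;> rcases hA (f, 1) with h4 | h4 <;>
    simp_all

theorem geo1_sep (M : ℕ) [NeZero M] (s : Src M) (J r : ℕ) : (geo1 M 1 s J).Sep r := by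
  have h : ∀ f : Tor M, flux (1 : Gauge M) f ≠ -1 := fun f => by rw [flux_one]; norm_num
  exact ⟨fun f _ a => absurd a (h f), fun f _ a => absurd a (h f), fun _ _ a => absurd rfl a⟩

/-- The size of the reference torus. -/
def mr (L R j : ℕ) : ℕ := 16 * (sc L j + (R + 1))

instance (L R j : ℕ) : NeZero (mr L R j) := ⟨by unfold mr; omega⟩

/-- The reference geometry. -/
noncomputable abbrev gr (L R j : ℕ) (i : Fin 2) : Geo := geo1 (mr L R j) 1 (enSrc 0 i) j

/-- The reference coefficient. -/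
noncomputable def zr (L : ℕ) (q : Par) (j : ℕ) : ℝ := ((gr L q.R j 0).flow L q 0 j).z ()

theorem z_eq {L : ℕ} (hL : 8 ≤ L) {q : Par} (hq : q.Ok) {g : Geo} {J : ℕ} {h : ℕ → ℝ}
    (hp : Pre L q.R g J h) {j : ℕ} (hj : j ≤ J) (k : g.K) : (g.flow L q 0 j).z k = zr L q j := by
  have h1 : sc L j ≤ sc L J := sc_mono (by omega) hj
  have h2 := eight_le_sc (L := L) (by omega) j
  have h3 := hp.M_le
  have hR : 16 * (q.R + 1) ≤ mr L q.R j := by unfold mr; omega
  have hM : 16 * sc L j ≤ mr L q.R j := by unfold mr; omega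
  have hen := (hp.ok.src k).en (hp.on k)
  have key : ((gr L q.R j (g.src k).dir).flow L q 0 j).z () = (g.flow L q 0 j).z k := by
    refine Geo.ag_z (c := (g.src k).y) (c' := 0) (T := 3 * sc L j) hL hp.ok (geo1_ok _ _ _ _) hq
      hp.R_le hR ⟨by omega, by change _ ≤ mr L q.R j; omega, fun f hf => ?_⟩ j
      ⟨?_, hen.1.symm, hen.2.symm, (hp.on k).symm, rfl, fun i hi => ?_⟩ (hp.on k)
      (by rw [tdist_self, zero_add])
    · rw [flux_eq_one hp.ok.sign fun e => by have := hp.sep.fs f k e; omega]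
      exact flux_one _
    · change (0 : Tor (mr L q.R j)) = _
      simp [shf, lft, prj]
      rfl
    · have := hp.J_le
      change _ ↔ i < j
      omega
  rw [← key]
  obtain h | h : (g.src k).dir = 0 ∨ (g.src k).dir = 1 := by
    generalize (g.src k).dir = d
    fin_cases d <;> simp
  · rw [h]; rfl
  · rw [h]; exact Geo.ag_dir hL hq _ hR j j hM 0

theorem pre_gr {L : ℕ} (hL : 1 ≤ L) (R j : ℕ) : Pre L R (gr L R j 0) j fun _ => (L : ℝ) ^ 2 where
  ok := geo1_ok _ _ _ _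
  on _ := rfl
  J_le := le_rfl
  M_le := by change _ ≤ mr L R j; unfold mr; omega
  R_le := by change _ ≤ mr L R j; unfold mr; omega
  sep := geo1_sep _ _ _ _
  h0 := rfl
  lo _ := le_rfl
  h1 _ _ := le_rfl
  h2 _ _ := by have : (0 : ℝ) ≤ (L : ℝ) ^ 2 := by positivity
               linarith
  hi i := by
    have h1 : (1 : ℝ) ≤ L := by exact_mod_cast hL
    exact (pow_le_pow_right₀ h1 (by norm_num)).trans
      (le_mul_of_one_le_right (by positivity) (one_le_pow₀ one_le_two))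

theorem exists_zinf {L : ℕ} (hL : 8 ≤ L) {q : Par} (hq : q.Ok) {δ a : ℝ} (hδ : 0 < δ)
    (H : ∀ g J h, Pre L q.R g J h → EFull g L q J h δ a) :
    ∃ z : ℝ, |z + 2 * (q.x * q.Z)| ≤ 2 * a / δ ∧ ∀ g J h, Pre L q.R g J h → ∀ k,
      |(g.flow L q 0 J).z k - z| ≤ 2 * a / δ / 2 ^ J := by
  have h1 : ∀ j, dist (zr L q j) (zr L q (j + 1)) ≤ 2 * a / δ / 2 / 2 ^ j := fun j => by
    have hp := pre_gr (L := L) (by omega) q.R (j + 1)
    have h2 := (H _ _ _ hp).z j (by omega) ()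
    rw [z_eq hL hq hp le_rfl (), z_eq hL hq hp (Nat.le_succ j) ()] at h2
    rw [dist_comm, Real.dist_eq]
    refine le_of_mul_le_mul_left (h2.trans (le_of_eq ?_)) hδ
    field_simp
  obtain ⟨z, hz⟩ := cauchySeq_tendsto_of_complete (cauchySeq_of_le_geometric_two h1)
  have h2 := dist_le_of_le_geometric_two_of_tendsto h1 hz
  refine ⟨z, ?_, fun g J h hp k => ?_⟩
  · have h3 := h2 0
    have e : zr L q 0 = -2 * (q.x * q.Z) := rfl
    rw [e, dist_comm, Real.dist_eq, pow_zero, div_one] at h3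
    rwa [show z + 2 * (q.x * q.Z) = z - -2 * (q.x * q.Z) by ring]
  · rw [z_eq hL hq hp le_rfl, ← Real.dist_eq]
    exact h2 J

end Vale.Agent.P144Z.FM
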