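import Vale.Agent.P144Z.TopM
import Vale.Agent.P144Z.E5.Main
import Vale.Agent.P144Z.R1.Main
import Vale.Agent.P144Z.R2.Main
import Vale.Agent.P144Z.R3.Main
import Vale.Agent.P144Z.R3W.Main
import Vale.Agent.P144Z.R4a.Main
import Vale.Agent.P144Z.R5.Main
import Vale.Agent.P144Z.R6.Main
import Vale.Agent.P144Z.R7.Main
import Vale.Agent.P144Z.R8.Main
import Vale.Agent.P144Z.I2.Cont

/-!
Elementary facts on anchored sums, scales and states.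
-/

namespace Vale.Agent.P144Z.FM

open Finset Matrix

section Anch
variable {M : ℕ} [NeZero M] {ℓ : ℕ} {τ τ' ε ε' : ℝ} {f f' : Finset (Tor M) → ℝ}

theorem anch_mono (h : Anch ℓ τ f ε) (hf : ∀ X, f' X ≤ f X) (hε : ε ≤ ε') : Anch ℓ τ f' ε' :=
  fun z => (Finset.sum_le_sum fun X _ =>
    mul_le_mul_of_nonneg_right (hf X) (Real.exp_pos _).le).trans ((h z).trans hε)

theorem anch_le (h : Anch ℓ τ f ε) (hε : ε ≤ ε') : Anch ℓ τ f ε' := anch_mono h (fun _ => le_rfl) hε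

theorem anch_tau (h : Anch ℓ τ f ε) (hf : ∀ X, 0 ≤ f X) (hτ : τ' ≤ τ) : Anch ℓ τ' f ε :=
  fun z => (Finset.sum_le_sum fun X _ => mul_le_mul_of_nonneg_left (Real.exp_le_exp.2
    (div_le_div_of_nonneg_right (mul_le_mul_of_nonneg_right hτ (Nat.cast_nonneg _))
      (Nat.cast_nonneg _))) (hf X)).trans (h z)

theorem anch_zero (hf : ∀ X, f X = 0) : Anch ℓ τ f 0 := fun z => by simp [hf]

theorem anch_eq_zero (h : Anch ℓ τ f 0) (hf : ∀ X, 0 ≤ f X) {X : Finset (Tor M)}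
    (hX : X.Nonempty) : f X = 0 := by
  obtain ⟨x, hx⟩ := hX
  have h1 := (Finset.sum_eq_zero_iff_of_nonneg fun Y _ =>
    mul_nonneg (hf Y) (Real.exp_pos (τ * (stein Y : ℝ) / ℓ)).le).1
    (le_antisymm (h x) (Finset.sum_nonneg fun Y _ => mul_nonneg (hf Y) (Real.exp_pos _).le)) X
    (Finset.mem_filter.2 ⟨Finset.mem_univ _, x, hx, by rw [tdist_self]; exact Nat.zero_le _⟩)
  exact (mul_eq_zero.1 h1).resolve_right (Real.exp_pos _).ne'

end Anch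

theorem sc_succ (L j : ℕ) : sc L (j + 1) = L * sc L j := by unfold sc; ring

theorem sc_zero (L : ℕ) : sc L 0 = 8 := by simp [sc]

theorem eight_le_sc {L : ℕ} (hL : 1 ≤ L) (j : ℕ) : 8 ≤ sc L j :=
  Nat.le_mul_of_pos_right 8 (pow_pos hL j)

theorem sc_mono {L : ℕ} (hL : 1 ≤ L) {i j : ℕ} (h : i ≤ j) : sc L i ≤ sc L j :=
  Nat.mul_le_mul_left 8 (Nat.pow_le_pow_right hL h)

theorem th_le {L : ℕ} (hL : 16 ≤ L) : 0 ≤ th L ∧ th L ≤ 1 / 4 := by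
  have h : (4 : ℝ) ≤ √(L : ℝ) := Real.le_sqrt_of_sq_le (by exact_mod_cast hL)
  refine ⟨by unfold th; positivity, ?_⟩
  rw [th, one_div]
  exact inv_anti₀ (by norm_num) h

theorem th_pow {L : ℕ} (hL : 16 ≤ L) (j : ℕ) : th L ^ j ≤ 1 / 2 ^ j / 2 ^ j := by
  rw [div_div, ← mul_pow, ← _root_.one_div_pow]
  exact pow_le_pow_left₀ (th_le hL).1 ((th_le hL).2.trans (by norm_num)) j

theorem tc_lo : 2 / 5 ≤ tc := by
  have h : (7 / 5 : ℝ) ≤ √2 := Real.le_sqrt_of_sq_le (by norm_num)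
  unfold tc; linarith

theorem tc_hi : tc ≤ 21 / 50 := by
  have h : √2 ≤ (71 / 50 : ℝ) := Real.sqrt_le_iff.2 ⟨by norm_num, by norm_num⟩
  unfold tc; linarith

variable {g : Geo}

theorem sep_mono {r r' : ℕ} (h : g.Sep r) (hr : r' ≤ r) : g.Sep r' :=
  ⟨fun f f' a b c => hr.trans_lt (h.ff f f' a b c), fun f k a => hr.trans_lt (h.fs f k a),
    fun k k' a => hr.trans_lt (h.ss k k' a)⟩

theorem st_ext {s s' : g.St} (hK : s.K = s'.K) (hv : s.v = s'.v) (hz : s.z = s'.z) : s = s' := by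
  cases s; cases s'; simp_all

theorem flow_succ (L : ℕ) (q : Par) (j : ℕ) :
    g.flow L q 0 (j + 1) = g.step j (sc L j) (L * sc L j) 0 (g.flow L q 0 j) := by
  rw [← sc_succ]; rfl

theorem cs_succ (L : ℕ) (q : Par) (j : ℕ) (U : Finset g.P) :
    g.cs L q (j + 1) U = g.noF (g.intg (sc L j) (L * sc L j) (g.flow L q 0 j) U) := by
  rw [← sc_succ]; rfl

theorem cl_empty {P 𝒜 S : Type} [DecidableEq P] [NormedCommRing 𝒜] [NormedAlgebra ℝ 𝒜] [Fintype S]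
    [DecidableEq S] (E : 𝒜 →ₗ[ℝ] Ev S) (hE : E 1 = 1) {H : Finset P → 𝒜} (h : H ∅ = 0) :
    Cl E H ∅ = 0 := by
  have : lg (1 : Ev S) = 0 := by
    rw [← NormedSpace.exp_zero]
    exact lg_exp 0
  simp [Cl, h, hE, this]

theorem W0_empty (hg : g.Ok) (q : Par) : g.W0 q ∅ = 0 := by
  refine cl_empty _ (I2.E0_one g _) ?_
  funext n
  have h1 : ∀ (y : g.P) (Y : Finset (ℤ × ℤ)), (0, 0) ∈ Y → g.put y Y ≠ ∅ := fun y Y h =>
    (Finset.Nonempty.image ⟨_, h⟩ _).ne_empty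
  have h2 : ∀ B ∈ potSets q.R, (0, 0) ∈ hull B := fun B hB => by
    have h0 := (Finset.mem_filter.1 hB).2
    exact Finset.mem_biUnion.2 ⟨((0, 0), (0, 0)), Finset.mem_product.2 ⟨h0, h0⟩, by simp⟩
  have h3 : ∀ y : g.P, (potSets q.R).filter (fun B => g.put y (hull B) = ∅) = ∅ := fun y =>
    Finset.filter_eq_empty_iff.2 fun B hB => h1 y _ (h2 B hB)
  have h4 : univ.filter (fun k => g.put (g.src k).y (g.src k).Y = ∅) = ∅ :=
    Finset.filter_eq_empty_iff.2 fun k _ => h1 _ _ (hg.src k).zero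
  simp [Geo.Hin, h3, h4]

theorem srcSt_H (z : g.K → ℝ) {U : Finset g.P} (hU : ¬ g.Exc U) : (g.srcSt z).H U = 0 := by
  have h : univ.filter (fun k => star (g.src k).y = U) = ∅ :=
    Finset.filter_eq_empty_iff.2 fun k _ h => hU ⟨k, Or.inl h.symm⟩
  simp [Geo.St.H, Geo.St.car, Geo.srcSt, h]

theorem Wsrc_eq (q : Par) {U : Finset g.P} (hU : ¬ g.Exc U) : g.Wsrc q U = 0 := by
  have h : univ.filter (fun k => g.put (g.src k).y (g.src k).Y = U) = ∅ :=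
    Finset.filter_eq_empty_iff.2 fun k _ h => hU ⟨k, Or.inr h.symm⟩
  simp [Geo.Wsrc, h]

theorem intg_srcSt {ℓ ℓ' : ℕ} (h : ℓ ≤ ℓ') (h2 : 2 ≤ ℓ') (hs : g.Sep (8 * ℓ')) (z : g.K → ℝ)
    {U : Finset g.P} (hU : ¬ g.Exc U) : g.intg ℓ ℓ' (g.srcSt z) U = 0 := by
  rw [Geo.intg, Geo.Cl_srcSt (ℓ' := ℓ') (covP_anti (C.Dm_anti _) _ _)
    (fun s s' hs => covP_range g.A h h2 hs) (fun k k' hk => by have := hs.ss k k' hk; omega),
    srcSt_H z hU, map_zero]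

variable {ℓ : ℕ} {h h' β : ℝ}

theorem dp_zero (X : Finset g.P) : g.dp ℓ X 0 = 0 := by simp [Geo.dp]

theorem df_nonneg (s s' : g.St) (X : Finset g.P) : 0 ≤ g.df ℓ h β s s' X :=
  add_nonneg (RN.pn_nonneg _) (RN.pn_nonneg _)

theorem bf_nonneg (s : g.St) (X : Finset g.P) : 0 ≤ g.bf ℓ h s X := by
  unfold Geo.bf
  split_ifs
  · exact add_nonneg (RN.pn_nonneg _) (RN.pn_nonneg _)
  · exact le_rfl

theorem df_self (hℓ : 1 ≤ ℓ) (hh : 0 < h) (hβ : 0 < β) (s : g.St) (X : Finset g.P) :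
    g.df ℓ h β s s X = 0 := by
  simp [Geo.df, dp_zero, RN.pn_zero hℓ hh hβ]

theorem bf_mono (hℓ : 1 ≤ ℓ) (hh : 0 < h') (h1 : h' ≤ h) {s : g.St} (hs : g.Wf s)
    (X : Finset g.P) : g.bf ℓ h' s X ≤ g.bf ℓ h s X := by
  unfold Geo.bf
  split_ifs
  · exact add_le_add
      (RN.pn_mono hℓ hh one_pos h1 le_rfl (Finset.Subset.refl _) (RN.noB_mem (hs.Kmem X)))
      (RN.pn_mono hℓ hh one_pos h1 le_rfl (Finset.Subset.refl _) (RN.noB_mem (hs.car_mem X)))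
  · exact le_rfl

theorem bf_free (hℓ : 1 ≤ ℓ) (hh : 0 < h) {s : g.St} (hs : g.Free s) (X : Finset g.P) :
    g.bf ℓ h s X = 0 := by
  have : g.noB (s.car X) = 0 := by
    simp [Geo.St.car, hs.2, map_sum, Geo.noB_bE]
  simp [Geo.bf, hs.1, this, RN.pn_zero hℓ hh one_pos]

/-- The constants are bounded in the norm of the sources. -/
theorem ps_le (hA : IsSign g.A) (hℓ : 1 ≤ ℓ) (hh : 0 < h) {β' : ℝ} (hβ' : 0 < β') (h1 : β' ≤ β)
    {U : Finset g.P} {F : g.E} (hF : F ∈ g.sub U) : g.ps β' U (g.noF F) ≤ g.pn ℓ h β U F := by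
  rw [Geo.ps, Geo.pn_noF_eq hA hℓ hh hβ' hF le_rfl one_pos]
  exact (RN.pn_noF hℓ hh hβ' hF).trans
    (RN.pn_mono hℓ hh hβ' le_rfl h1 (Finset.Subset.refl _) hF)

/-- A free state without defect is a source state. -/
theorem eq_srcSt (hℓ : 1 ≤ ℓ) (hh : 0 < h) (hβ : 0 < β) {τ : ℝ} {s : g.St} (hs : g.Wf s)
    (hf : g.Free s) (h0 : Anch ℓ τ (g.df ℓ h β s (g.srcSt s.z)) 0) : s = g.srcSt s.z := by
  refine st_ext (funext fun X => ?_) (funext hf.2) rfl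
  rcases X.eq_empty_or_nonempty with rfl | hX
  · exact hs.K0
  · have h1 := anch_eq_zero h0 (df_nonneg _ _) hX
    have h2 : g.dp ℓ X (s.K X - (g.srcSt s.z).K X) = s.K X := by
      simp [Geo.dp, Geo.srcSt, hf.1]
    rw [Geo.df, h2] at h1
    refine RN.pn_def hℓ hh hβ (hs.Kmem X) (le_antisymm ?_ (RN.pn_nonneg _))
    have := RN.pn_nonneg (g := g) (ℓ := ℓ) (h := h) (β := β) (X := X)
      (g.dp ℓ X (s.car X - (g.srcSt s.z).car X))
    linarith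

theorem rec_eq (a c : ℝ) (j : ℕ) :
    (a + 4 * c * (1 - 1 / 2 ^ j)) / 2 ^ j / 2 + c / 2 ^ j / 2 ^ j =
      (a + 4 * c * (1 - 1 / 2 ^ (j + 1))) / 2 ^ (j + 1) := by
  field_simp
  ring

theorem rec_le {a c : ℝ} (hc : 0 ≤ c) (j : ℕ) :
    (a + 4 * c * (1 - 1 / 2 ^ j)) / 2 ^ j ≤ (a + 4 * c) / 2 ^ j := by
  have : (0 : ℝ) ≤ 1 / 2 ^ j := by positivity
  exact div_le_div_of_nonneg_right (by nlinarith) (by positivity)

theorem div_pow_le {a : ℝ} (ha : 0 ≤ a) (j : ℕ) : a / 2 ^ j ≤ a :=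
  div_le_self ha (one_le_pow₀ one_le_two)

end Vale.Agent.P144Z.FM
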