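import Vale.Agent.P144Z.FM.Basic

/-!
The induction over the scales below the distance of the defects.
-/

namespace Vale.Agent.P144Z.FM

open Finset Matrix

/-- The early step. -/
def SE (L : ℕ) (C : ℝ) : Prop := ∀ g : Geo, IsSign g.A →
    (∀ k, (g.src k).on = true) → ∀ j ℓ : ℕ, j < g.J → 8 ≤ ℓ → 16 * (L * ℓ) ≤ g.M →
    g.Sep (8 * (L * ℓ)) → ∀ h h' δ : ℝ, (L : ℝ) ^ 2 ≤ h → h ≤ h' → h' ≤ 2 * h → 0 < δ → C * δ ≤ 1 →
    ∀ s : g.St, g.Wf s → (∀ k, |s.z k| ≤ 2) → ∀ D b : ℝ, D ≤ δ → b ≤ δ →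
    Anch ℓ L (g.df ℓ h (δ * ℓ / h ^ 2) s (g.srcSt s.z)) D → Anch ℓ L (g.bf ℓ h s) b →
      g.ExpId (covP (Dm g.A) ℓ (L * ℓ)) s ∧
      Anch (L * ℓ) L (g.df (L * ℓ) h' (δ * (L * ℓ : ℕ) / h' ^ 2) (g.step j ℓ (L * ℓ) 0 s)
        (g.srcSt (g.step j ℓ (L * ℓ) 0 s).z)) (D / 2 + C * b) ∧
      (∀ k, δ * |(g.step j ℓ (L * ℓ) 0 s).z k - s.z k| ≤ C * (D + b)) ∧
      Anch (L * ℓ) (2 * L) (fun U => g.pn ℓ (h / 2) (δ * ℓ / h ^ 2) U
        (g.intg ℓ (L * ℓ) s U - g.intg ℓ (L * ℓ) (g.srcSt s.z) U)) (C * (D + b))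

/-- The result of the early induction. -/
structure EOut (g : Geo) (L : ℕ) (q : Par) (J : ℕ) (h : ℕ → ℝ) (δ A E : ℝ) : Prop where
  df : ∀ j ≤ J, Anch (sc L j) L (g.df (sc L j) (h j) (δ * sc L j / h j ^ 2) (g.flow L q 0 j)
    (g.srcSt (g.flow L q 0 j).z)) (A / 2 ^ j)
  ex : ∀ j < J, g.ExpId (covP (Dm g.A) (sc L j) (sc L (j + 1))) (g.flow L q 0 j)
  z : ∀ j < J, ∀ k, δ * |(g.flow L q 0 (j + 1)).z k - (g.flow L q 0 j).z k| ≤ E / 2 ^ j
  intg : ∀ j < J, Anch (sc L (j + 1)) (2 * L) (fun U => g.pn (sc L j) (h j / 2)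
    (δ * sc L j / h j ^ 2) U (g.intg (sc L j) (L * sc L j) (g.flow L q 0 j) U -
      g.intg (sc L j) (L * sc L j) (g.srcSt (g.flow L q 0 j).z) U)) (E / 2 ^ j)

theorem early_ind {L : ℕ} (hL : 1 ≤ L) {C δ : ℝ} (hC : 1 ≤ C) (hSE : SE L C) (hδ : 0 < δ)
    (hCδ : C * δ ≤ 1) {g : Geo} (hg : g.Ok) (hon : ∀ k, (g.src k).on = true) {J : ℕ}
    (hJ : J ≤ g.J) (hM : 16 * sc L J ≤ g.M) (hsep : g.Sep (8 * sc L J)) {h : ℕ → ℝ}
    (hh0 : ∀ j, (L : ℝ) ^ 2 ≤ h j) (hh1 : ∀ j < J, h j ≤ h (j + 1))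
    (hh2 : ∀ j < J, h (j + 1) ≤ 2 * h j) {q : Par} {a b : ℝ} (ha : 0 ≤ a) (hb : 0 ≤ b)
    (hz : 2 * (C * (a + 4 * (C * b) + b)) ≤ δ) (hz0 : ∀ k, |(g.init q).z k| ≤ 1)
    (h0 : Anch 8 L (g.df 8 (h 0) (δ * (8 : ℕ) / h 0 ^ 2) (g.init q) (g.srcSt (g.init q).z)) a)
    (hbf : ∀ j < J, Anch (sc L j) L (g.bf (sc L j) (h j) (g.flow L q 0 j)) (b / 2 ^ j / 2 ^ j)) :
    EOut g L q J h δ (a + 4 * (C * b)) (C * (a + 4 * (C * b) + b)) := by
  have hCb : 0 ≤ C * b := by positivity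
  have hA : a + 4 * (C * b) + b ≤ δ := by nlinarith
  have step : ∀ j < J, Anch (sc L j) L (g.df (sc L j) (h j) (δ * sc L j / h j ^ 2)
      (g.flow L q 0 j) (g.srcSt (g.flow L q 0 j).z))
      ((a + 4 * (C * b) * (1 - 1 / 2 ^ j)) / 2 ^ j) → (∀ k, |(g.flow L q 0 j).z k| ≤ 2) → _ :=
    fun j hj hd hzz => hSE g hg.sign hon j (sc L j) (by omega) (eight_le_sc hL j)
      (by rw [← sc_succ]; exact (Nat.mul_le_mul_left _ (sc_mono hL hj)).trans hM)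
      (by rw [← sc_succ]; exact sep_mono hsep (Nat.mul_le_mul_left _ (sc_mono hL hj)))
      (h j) (h (j + 1)) δ (hh0 j) (hh1 j hj) (hh2 j hj) hδ hCδ _ (Geo.wf_flow hg L q 0 j) hzz _ _
      ((rec_le hCb j).trans ((div_pow_le (by positivity) j).trans (by linarith)))
      ((div_pow_le (by positivity) j).trans ((div_pow_le hb j).trans (by linarith))) hd (hbf j hj)
  have hE : ∀ j : ℕ, C * ((a + 4 * (C * b) * (1 - 1 / 2 ^ j)) / 2 ^ j + b / 2 ^ j / 2 ^ j) ≤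
      C * (a + 4 * (C * b) + b) / 2 ^ j := fun j => by
    rw [mul_div_assoc, add_div (a + 4 * (C * b))]
    exact mul_le_mul_of_nonneg_left (add_le_add (rec_le hCb j) (div_pow_le (by positivity) j))
      (by linarith)
  have key : ∀ j ≤ J, Anch (sc L j) L (g.df (sc L j) (h j) (δ * sc L j / h j ^ 2)
      (g.flow L q 0 j) (g.srcSt (g.flow L q 0 j).z))
      ((a + 4 * (C * b) * (1 - 1 / 2 ^ j)) / 2 ^ j) ∧
      ∀ k, |(g.flow L q 0 j).z k| ≤ 2 - 1 / 2 ^ j := by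
    intro j hj
    induction j with
    | zero =>
      rw [sc_zero]
      exact ⟨anch_le h0 (by simp), fun k => (hz0 k).trans (by norm_num)⟩
    | succ j ih =>
      obtain ⟨h1, h2⟩ := ih (by omega)
      have h3 : (0 : ℝ) ≤ 1 / 2 ^ j := by positivity
      obtain ⟨-, s2, s3, -⟩ := step j (by omega) h1 fun k => (h2 k).trans (by linarith)
      rw [← flow_succ, ← sc_succ] at s2
      refine ⟨anch_le s2 ?_, fun k => ?_⟩
      · rw [← rec_eq, mul_div_assoc, mul_div_assoc]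
      · have h4 := (s3 k).trans (hE j)
        rw [← flow_succ] at h4
        have h5 : C * (a + 4 * (C * b) + b) / 2 ^ j ≤ δ * (1 / 2 ^ (j + 1)) := by
          rw [pow_succ, div_le_iff₀ (by positivity)]
          field_simp
          linarith
        have h6 := le_of_mul_le_mul_left (h4.trans h5) hδ
        have h7 : (1 : ℝ) / 2 ^ j = 2 * (1 / 2 ^ (j + 1)) := by rw [pow_succ]; field_simp
        have h8 := abs_add_le ((g.flow L q 0 (j + 1)).z k - (g.flow L q 0 j).z k)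
          ((g.flow L q 0 j).z k)
        rw [sub_add_cancel] at h8
        linarith [h2 k]
  have step' := fun j (hj : j < J) => step j hj (key j hj.le).1 fun k =>
    ((key j hj.le).2 k).trans (sub_le_self _ (by positivity))
  refine ⟨fun j hj => anch_le (key j hj).1 (rec_le hCb j), fun j hj => ?_, fun j hj k => ?_,
    fun j hj => ?_⟩
  · rw [sc_succ]; exact (step' j hj).1
  · rw [flow_succ]; exact ((step' j hj).2.2.1 k).trans (hE j)
  · rw [sc_succ]; exact anch_le (step' j hj).2.2.2 (hE j)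

end Vale.Agent.P144Z.FM
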