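import Vale.Agent.P144Z.FM.Early

/-!
The early induction for critical parameters and for the nearest-neighbour model.
-/

namespace Vale.Agent.P144Z.FM

open Finset Matrix

/-- The geometries and radii of the early induction. -/
structure Pre (L R : ℕ) (g : Geo) (J : ℕ) (h : ℕ → ℝ) : Prop where
  ok : g.Ok
  on : ∀ k, (g.src k).on = true
  J_le : J ≤ g.J
  M_le : 16 * sc L J ≤ g.M
  R_le : 16 * (R + 1) ≤ g.M
  sep : g.Sep (8 * sc L J)
  h0 : h 0 = (L : ℝ) ^ 2
  lo : ∀ j, (L : ℝ) ^ 2 ≤ h j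
  h1 : ∀ j < J, h j ≤ h (j + 1)
  h2 : ∀ j < J, h (j + 1) ≤ 2 * h j
  hi : ∀ j, h j ≤ hb L j

/-- All the bounds of the early regime. -/
structure EFull (g : Geo) (L : ℕ) (q : Par) (J : ℕ) (h : ℕ → ℝ) (δ a : ℝ) : Prop
    extends EOut g L q J h δ a a where
  init : NormedSpace.exp (∑ U, g.W0 q U) = g.E0 (q.x * q.Z) (NormedSpace.exp (∑ X, g.Hin q X))
  W0 : Anch 8 (2 * L) (fun U => g.pn 8 (h 0) (δ * (8 : ℕ) / h 0 ^ 2) U (g.W0 q U - g.Wsrc q U)) a
  bf : ∀ j, 16 * sc L j ≤ g.M →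
    Anch (sc L j) L (g.bf (sc L j) (h j) (g.flow L q 0 j)) (a / 2 ^ j / 2 ^ j)

theorem EOut.mono {g : Geo} {L : ℕ} {q : Par} {J : ℕ} {h : ℕ → ℝ} {δ A E a : ℝ}
    (H : EOut g L q J h δ A E) (hA : A ≤ a) (hE : E ≤ a) : EOut g L q J h δ a a :=
  ⟨fun j hj => anch_le (H.df j hj) (by gcongr), H.ex,
    fun j hj k => (H.z j hj k).trans (by gcongr), fun j hj => anch_le (H.intg j hj) (by gcongr)⟩

theorem z0_le {g : Geo} {q : Par} {η : ℝ} (hη : η ≤ 1 / 20) (hx : |q.x - tc| ≤ η)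
    (hZ : |q.Z - 1| ≤ η) (k : g.K) : |(g.init q).z k| ≤ 1 := by
  have h1 : |q.x| ≤ 47 / 100 := by
    have := tc_hi; have := tc_lo
    rw [abs_le] at hx ⊢; constructor <;> linarith
  have h2 : |q.Z| ≤ 21 / 20 := by
    rw [abs_le] at hZ ⊢; constructor <;> linarith
  change |g.z0 q k| ≤ 1
  unfold Geo.z0
  split_ifs
  · rw [abs_mul, abs_mul, abs_neg, abs_two]
    nlinarith [abs_nonneg q.x, abs_nonneg q.Z]
  · simp

theorem early_all : ∃ L₀ : ℕ, 16 ≤ L₀ ∧ ∀ L ≥ L₀, ∀ δm > 0, ∃ δ : ℝ, 0 < δ ∧ δ ≤ δm ∧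
    ∃ A : ℝ, 1 ≤ A ∧ ∃ η₀ > 0, η₀ ≤ 1 / 20 ∧
    (∀ η, 0 < η → η ≤ η₀ → ∀ R : ℕ, ∃ δ₀ > 0, ∀ q : Par, q.R = R → Crit L q η δ₀ →
      ∀ g J h, Pre L R g J h → EFull g L q J h δ (A * η)) ∧
    ∀ R g J h, Pre L R g J h → EFull g L par0 J h δ 0 := by
  obtain ⟨L₀, hE⟩ := Geo.step_early
  obtain ⟨Cb, hCb, hbf⟩ := Geo.ag_bf
  refine ⟨max L₀ 16, le_max_right _ _, fun L hL δm hδm => ?_⟩
  have hL16 : 16 ≤ L := (le_max_right _ _).trans hL
  have hL0 : (0 : ℝ) < L := by positivity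
  obtain ⟨C, hC, hSE⟩ := hE L ((le_max_left _ _).trans hL)
  obtain ⟨β₀, hβ₀, hI⟩ := Geo.init_early (2 * L) ((L : ℝ) ^ 2) (by positivity) (by positivity)
  obtain ⟨Cd, hCd, hD⟩ := Geo.init_df L ((L : ℝ) ^ 2) (by positivity) (by positivity)
  obtain ⟨δ, hδ, hδ1, hδ2, hδ3⟩ : ∃ δ : ℝ, 0 < δ ∧ δ ≤ δm ∧ C * δ ≤ 1 ∧
      δ * (8 : ℕ) / ((L : ℝ) ^ 2) ^ 2 ≤ β₀ := by
    refine ⟨min δm (min (1 / C) (β₀ / 8)), by positivity, min_le_left _ _, ?_, ?_⟩
    · rw [mul_comm, ← le_div_iff₀ (by positivity)]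
      exact (min_le_right _ _).trans (min_le_left _ _)
    · have h1 : (1 : ℝ) ≤ ((L : ℝ) ^ 2) ^ 2 :=
        one_le_pow₀ (one_le_pow₀ (by exact_mod_cast (by omega : 1 ≤ L)))
      refine (div_le_self (by positivity) h1).trans ?_
      have := (min_le_right δm _).trans (min_le_right (1 / C) (β₀ / 8))
      push_cast
      linarith
  set B := Cb * Real.exp L with hB
  have hB0 : 0 ≤ B := by positivity
  set A := C * (4 + Cd + 4 * (C * B) + B) with hA
  have hA1 : 4 + Cd + 4 * (C * B) + B ≤ A := le_mul_of_one_le_left (by positivity) hC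
  have hCB : 0 ≤ C * B := by positivity
  have main : ∀ (q : Par) (η : ℝ), 0 ≤ η → η ≤ 1 / 20 → 2 * (A * η) ≤ δ → q.Ok → |q.x - tc| ≤ η →
      |q.Z - 1| ≤ η → ∀ (Ci δ₀ : ℝ), Ci * δ₀ ≤ η → ∀ R g J h, Pre L R g J h →
      (NormedSpace.exp (∑ U, g.W0 q U) = g.E0 (q.x * q.Z) (NormedSpace.exp (∑ X, g.Hin q X)) ∧
        Anch 8 (2 * L) (fun U => g.pn 8 ((L : ℝ) ^ 2) (δ * (8 : ℕ) / ((L : ℝ) ^ 2) ^ 2) U
          (g.W0 q U - g.Wsrc q U)) (Ci * δ₀)) →
      (∀ j, 16 * sc L j ≤ g.M → Anch (sc L j) L (g.bf (sc L j) (h j) (g.flow L q 0 j))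
        (B * η / 2 ^ j / 2 ^ j)) → EFull g L q J h δ (A * η) := by
    intro q η hη hη1 hηδ hq hx hZ Ci δ₀ hCi R g J h hp hi hb
    have h0 := (hD g hp.ok q η hq hx hZ (δ * (8 : ℕ) / ((L : ℝ) ^ 2) ^ 2) η (by positivity)).1
      hp.on (anch_le (anch_tau hi.2 (fun _ => RN.pn_nonneg _) (by linarith)) hCi)
    have h1 := early_ind (by omega) hC hSE hδ hδ2 hp.ok hp.on hp.J_le hp.M_le hp.sep hp.lo hp.h1
      hp.h2 (q := q) (a := (4 + Cd) * η) (b := B * η) (by positivity) (by positivity)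
      (by rw [hA] at hηδ; linarith) (z0_le hη1 hx hZ) (by rw [hp.h0, add_mul]; exact h0)
      fun j hj => hb j ((Nat.mul_le_mul_left _ (sc_mono (by omega) hj.le)).trans hp.M_le)
    refine ⟨h1.mono (by nlinarith) (by rw [hA]; linarith), hi.1, ?_, fun j hj => ?_⟩
    · rw [hp.h0]
      exact anch_le hi.2 (hCi.trans (by nlinarith))
    · refine anch_le (hb j hj) ?_
      gcongr
      linarith
  have h8 : ∀ {R g J h}, Pre L R g J h → ∀ k k', k ≠ k' →
      8 < tdist (g.src k).y (g.src k').y := fun {R g J h} hp k k' hk => by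
    have := hp.sep.ss k k' hk
    have := eight_le_sc (L := L) (by omega) J
    omega
  refine ⟨δ, hδ, hδ1, A, by linarith, min (1 / 20) (δ / (2 * A)), by positivity, min_le_left _ _,
    fun η hη hη0 R => ?_, fun R g J h hp => ?_⟩
  · obtain ⟨Ci, hCi, hI⟩ := hI R
    have hη1 := hη0.trans (min_le_left _ _)
    have hη2 := hη0.trans (min_le_right _ _)
    rw [le_div_iff₀ (by positivity)] at hη2
    have e : Ci * (η / Ci) = η := by field_simp
    refine ⟨η / Ci, by positivity, fun q hR hc g J h hp => ?_⟩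
    refine main q η hη.le hη1 (by linarith) hc.ok hc.x hc.Z Ci _ e.le R g J h hp
      (hI q hR hc.ok _ hc.small (by rw [e]; linarith) g hp.ok hp.on (h8 hp) _ (by positivity) hδ3)
      fun j hj => ?_
    refine anch_mono (hbf L (by omega) q η hc.ok hc.bulk g hp.ok (hR ▸ hp.R_le) j hj)
      (bf_mono (by have := eight_le_sc (L := L) (by omega) j; omega)
        ((pow_pos hL0 2).trans_le (hp.lo j)) (hp.hi j) (Geo.wf_flow hp.ok L q 0 j)) ?_
    rw [div_div, div_eq_mul_one_div, ← div_div]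
    exact mul_le_mul_of_nonneg_left (th_pow hL16 j) (by positivity)
  · obtain ⟨Ci, hCi, hI⟩ := hI 0
    have hc := crit_par0 L 0 0 le_rfl le_rfl
    have := main par0 0 le_rfl (by norm_num) (by linarith) hc.ok hc.x hc.Z Ci 0 (by simp) R g J h hp
      (hI par0 rfl hc.ok _ hc.small (by simp) g hp.ok hp.on (h8 hp) _ (by positivity) hδ3)
      fun j _ => anch_le (anch_zero (bf_free (by have := eight_le_sc (L := L) (by omega) j; omega)
        ((pow_pos hL0 2).trans_le (hp.lo j)) (Geo.free_flow hp.ok L j))) (by simp)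
    rwa [mul_zero] at this

variable {L R : ℕ} {g : Geo} {J : ℕ} {h : ℕ → ℝ} {δ : ℝ}

theorem Pre.pos (hp : Pre L R g J h) (hL : 1 ≤ L) (j : ℕ) : 0 < h j :=
  (pow_pos (by exact_mod_cast hL) 2).trans_le (hp.lo j)

theorem beta_pos (hL : 1 ≤ L) (hδ : 0 < δ) {x : ℝ} (hx : 0 < x) (j : ℕ) :
    0 < δ * sc L j / x ^ 2 := by
  have : (0 : ℝ) < sc L j := by have := eight_le_sc hL j; positivity
  positivity

/-- The flow of the nearest-neighbour model is trivial in the early regime. -/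
theorem flow0 (hL : 1 ≤ L) (hδ : 0 < δ) (hp : Pre L R g J h) (H : EFull g L par0 J h δ 0) :
    ∀ j ≤ J, g.flow L par0 0 j = g.srcSt fun _ => -2 * tc := by
  have hz : ∀ j ≤ J, (g.flow L par0 0 j).z = fun _ => -2 * tc := by
    intro j hj
    induction j with
    | zero =>
      funext k
      change g.z0 par0 k = _
      simp [Geo.z0, hp.on, par0]
    | succ j ih =>
      funext k
      have h1 := H.z j (by omega) k
      rw [zero_div, ih (by omega)] at h1
      have h2 := le_of_mul_le_mul_left (h1.trans (mul_zero δ).ge) hδ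
      exact sub_eq_zero.1 (abs_nonpos_iff.1 h2)
  intro j hj
  have h1 := H.df j hj
  rw [zero_div] at h1
  rw [← hz j hj]
  exact eq_srcSt (by have := eight_le_sc hL j; omega) (hp.pos hL j) (beta_pos hL hδ (hp.pos hL j) j)
    (Geo.wf_flow hp.ok L par0 0 j) (Geo.free_flow hp.ok L j) h1

theorem intg_src (hL : 1 ≤ L) (hp : Pre L R g J h) {j : ℕ} (hj : j < J) (z : g.K → ℝ)
    {U : Finset g.P} (hU : ¬ g.Exc U) : g.intg (sc L j) (L * sc L j) (g.srcSt z) U = 0 := by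
  rw [← sc_succ]
  exact intg_srcSt (ℓ' := sc L (j + 1)) (sc_mono hL (by omega))
    (by have := eight_le_sc hL (j + 1); omega)
    (sep_mono hp.sep (Nat.mul_le_mul_left _ (sc_mono hL hj))) z hU

theorem early0 (hL : 1 ≤ L) (hδ : 0 < δ) (hp : Pre L R g J h) (H : EFull g L par0 J h δ 0) :
    ∀ j ≤ J, ∀ U, ¬ g.Exc U → g.cs L par0 j U = 0 := by
  intro j hj U hU
  cases j with
  | zero =>
    change g.noF (g.W0 par0 U) = 0
    rcases U.eq_empty_or_nonempty with rfl | hne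
    · rw [W0_empty hp.ok, map_zero]
    · have h1 := anch_eq_zero H.W0 (fun _ => RN.pn_nonneg _) hne
      rw [Wsrc_eq _ hU, sub_zero] at h1
      have := hp.pos hL 0
      rw [RN.pn_def (by norm_num) this (by positivity) (Geo.W0_mem hp.ok par0 U) h1, map_zero]
  | succ j =>
    rw [cs_succ, flow0 hL hδ hp H j (by omega), intg_src hL hp (by omega) _ hU, map_zero]

open Classical in
theorem early1 (hL : 1 ≤ L) (hp : Pre L R g J h) {q : Par} {a w : ℝ} (ha : 0 ≤ a)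
    (H : EFull g L q J h δ a) (hw : 0 < w) (hwh : ∀ j, w * L * h j ^ 2 ≤ δ) :
    ∀ j ≤ J, Anch (sc L j) (2 * L)
      (fun U => if g.Exc U then 0 else g.ps (w * sc L j) U (g.cs L q j U)) (2 * a / 2 ^ j) := by
  have hL' : (1 : ℝ) ≤ L := by exact_mod_cast hL
  have hs : ∀ j, (0 : ℝ) < sc L j := fun j => by have := eight_le_sc hL j; positivity
  intro j hj
  cases j with
  | zero =>
    rw [sc_zero]
    refine anch_mono H.W0 (fun U => ?_) (by rw [pow_zero, div_one]; linarith)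
    split_ifs with hU
    · exact RN.pn_nonneg _
    · rw [Wsrc_eq _ hU, sub_zero]
      have := hp.pos hL 0
      refine ps_le hp.ok.sign (by norm_num) this (by positivity) ?_ (Geo.W0_mem hp.ok q U)
      rw [le_div_iff₀ (by positivity)]
      have h1 : w * h 0 ^ 2 ≤ w * L * h 0 ^ 2 := by
        rw [mul_assoc]
        exact mul_le_mul_of_nonneg_left (le_mul_of_one_le_left (by positivity) hL') hw.le
      have := hwh 0
      push_cast
      linarith
  | succ j =>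
    refine anch_mono (H.intg j (by omega)) (fun U => ?_) (by rw [pow_succ]; field_simp; rfl)
    split_ifs with hU
    · exact RN.pn_nonneg _
    · rw [intg_src hL hp (by omega) _ hU, sub_zero, cs_succ]
      have := hp.pos hL j
      refine ps_le hp.ok.sign (by have := eight_le_sc hL j; omega) (by positivity)
        (mul_pos hw (hs _)) ?_
        ((Geo.wf_flow hp.ok L q 0 j).Cl_mem (covP_anti (C.Dm_anti _) _ _) U)
      rw [le_div_iff₀ (by positivity), sc_succ]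
      push_cast
      have := mul_le_mul_of_nonneg_right (hwh j) (hs j).le
      linarith

end Vale.Agent.P144Z.FM
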