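import Vale.Agent.P144Z.FM.Basic

/-!
The induction over the scales above the distance of the defects.
-/

namespace Vale.Agent.P144Z.FM

open Finset Matrix

/-- The general step at the scale `j`. -/
def StepOK (g : Geo) (L j : ℕ) (h h' β C : ℝ) : Prop :=
  ∀ s s' : g.St, g.Wf s → g.Wf s' → g.Free s' → ∀ D b e : ℝ, C * D ≤ 1 → C * b ≤ 1 → C * e ≤ 1 →
    Anch (sc L j) L (g.df (sc L j) h β s s') D → Anch (sc L j) L (g.bf (sc L j) h s) b →
    Anch (sc L j) L (g.df (sc L j) h β s' (g.srcSt 0)) e →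
      g.ExpId (covP (Dm g.A) (sc L j) (L * sc L j)) s ∧
      Anch (L * sc L j) L (g.df (L * sc L j) h' β (g.step j (sc L j) (L * sc L j) 0 s)
        (g.step j (sc L j) (L * sc L j) 0 s')) (D / 2 + C * b) ∧
      Anch (L * sc L j) (2 * L) (fun U => g.pn (sc L j) (h / 2) β U
        (g.intg (sc L j) (L * sc L j) s U - g.intg (sc L j) (L * sc L j) s' U)) (C * (D + b))

theorem diff_ind {g : Geo} {L J N : ℕ} {h : ℕ → ℝ} {β C : ℝ} (hC : 1 ≤ C)
    (hS : ∀ j, J ≤ j → j < N → StepOK g L j (h j) (h (j + 1)) β C) {s t : ℕ → g.St}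
    (hs : ∀ j, s (j + 1) = g.step j (sc L j) (L * sc L j) 0 (s j))
    (ht : ∀ j, t (j + 1) = g.step j (sc L j) (L * sc L j) 0 (t j)) (ws : ∀ j, g.Wf (s j))
    (wt : ∀ j, g.Wf (t j)) (ft : ∀ j, g.Free (t j)) {a b e : ℝ} (ha : 0 ≤ a) (hb : 0 ≤ b)
    (h1 : C * ((a + 4 * (C * b)) / 2 ^ J) ≤ 1) (h2 : C * b ≤ 1) (h3 : C * e ≤ 1)
    (h0 : Anch (sc L J) L (g.df (sc L J) (h J) β (s J) (t J)) (a / 2 ^ J))
    (hbf : ∀ j, J ≤ j → j < N →
      Anch (sc L j) L (g.bf (sc L j) (h j) (s j)) (b / 2 ^ j / 2 ^ j))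
    (he : ∀ j, J ≤ j → j < N → Anch (sc L j) L (g.df (sc L j) (h j) β (t j) (g.srcSt 0)) e) :
    (∀ j, J ≤ j → j ≤ N →
      Anch (sc L j) L (g.df (sc L j) (h j) β (s j) (t j)) ((a + 4 * (C * b)) / 2 ^ j)) ∧
    ∀ j, J ≤ j → j < N → g.ExpId (covP (Dm g.A) (sc L j) (sc L (j + 1))) (s j) ∧
      Anch (sc L (j + 1)) (2 * L) (fun U => g.pn (sc L j) (h j / 2) β U
        (g.intg (sc L j) (L * sc L j) (s j) U - g.intg (sc L j) (L * sc L j) (t j) U))
        (C * (a + 4 * (C * b) + b) / 2 ^ j) := by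
  have hC0 : 0 ≤ C := by linarith
  have hCb : 0 ≤ C * b := by positivity
  have step : ∀ j, J ≤ j → j < N → Anch (sc L j) L (g.df (sc L j) (h j) β (s j) (t j))
      ((a + 4 * (C * b) * (1 - 1 / 2 ^ j)) / 2 ^ j) → _ := fun j hj hj' hd =>
    hS j hj hj' (s j) (t j) (ws j) (wt j) (ft j) _ _ e
      ((mul_le_mul_of_nonneg_left ((rec_le hCb j).trans (div_le_div_of_nonneg_left (by positivity)
        (by positivity) (pow_le_pow_right₀ one_le_two hj))) hC0).trans h1)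
      ((mul_le_mul_of_nonneg_left ((div_pow_le (by positivity) j).trans (div_pow_le hb j))
        hC0).trans h2) h3 hd (hbf j hj hj') (he j hj hj')
  have key : ∀ j, J ≤ j → j ≤ N → Anch (sc L j) L (g.df (sc L j) (h j) β (s j) (t j))
      ((a + 4 * (C * b) * (1 - 1 / 2 ^ j)) / 2 ^ j) := by
    intro j hj
    induction j, hj using Nat.le_induction with
    | base =>
      intro _
      refine anch_le h0 (div_le_div_of_nonneg_right (le_add_of_nonneg_right ?_) (by positivity))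
      exact mul_nonneg (by positivity) (sub_nonneg.2 (div_pow_le one_pos.le J))
    | succ j hj ih =>
      intro hN
      have s2 := (step j hj (by omega) (ih (by omega))).2.1
      rw [← hs, ← ht, ← sc_succ] at s2
      refine anch_le s2 ?_
      rw [← rec_eq, mul_div_assoc, mul_div_assoc]
  refine ⟨fun j hj hj' => anch_le (key j hj hj') (rec_le hCb j), fun j hj hj' => ?_⟩
  obtain ⟨s1, -, s3⟩ := step j hj hj' (key j hj hj'.le)
  rw [sc_succ]
  refine ⟨s1, anch_le s3 ?_⟩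
  rw [mul_div_assoc, add_div (a + 4 * (C * b))]
  exact mul_le_mul_of_nonneg_left (add_le_add (rec_le hCb j) (div_pow_le (by positivity) j)) hC0

theorem free_ind {g : Geo} {L J N : ℕ} (hL : 1 ≤ L) {h : ℕ → ℝ} {β C : ℝ} (hh : ∀ j, 0 < h j)
    (hβ : 0 < β) (hC : 1 ≤ C)
    (hS : ∀ j, J ≤ j → j < N → StepOK g L j (h j) (h (j + 1)) β C) {s : ℕ → g.St}
    (hs : ∀ j, s (j + 1) = g.step j (sc L j) (L * sc L j) 0 (s j)) (ws : ∀ j, g.Wf (s j))
    (fs : ∀ j, g.Free (s j)) {e : ℝ} (he : 0 ≤ e) (h1 : C * e ≤ 1)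
    (h0 : Anch (sc L J) L (g.df (sc L J) (h J) β (s J) (g.srcSt 0)) e) :
    (∀ j, J ≤ j → j ≤ N →
      Anch (sc L j) L (g.df (sc L j) (h j) β (s j) (g.srcSt 0)) (e / 2 ^ (j - J))) ∧
    ∀ j, J ≤ j → j < N → g.ExpId (covP (Dm g.A) (sc L j) (sc L (j + 1))) (s j) ∧
      Anch (sc L (j + 1)) (2 * L) (fun U => g.pn (sc L j) (h j / 2) β U
        (g.intg (sc L j) (L * sc L j) (s j) U)) (1 / 2 ^ (j - J)) := by
  have h8 : ∀ j, 1 ≤ sc L j := fun j => by have := eight_le_sc hL j; omega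
  have e1 : e * 2 ^ J / 2 ^ J = e := by field_simp
  have e2 : ∀ j, J ≤ j → e * 2 ^ J / 2 ^ j = e / 2 ^ (j - J) := fun j hj => by
    obtain ⟨i, rfl⟩ := Nat.exists_eq_add_of_le hj
    rw [Nat.add_sub_cancel_left, pow_add]
    field_simp
  obtain ⟨k1, k2⟩ := diff_ind (t := fun _ => g.srcSt 0) (a := e * 2 ^ J) (b := 0) (e := 0) hC hS hs
    (fun j => (Geo.step_zero _ _ _).symm) ws (fun _ => (Geo.wf_srcSt 0).1)
    (fun _ => (Geo.wf_srcSt 0).2) (by positivity) le_rfl (by simpa [e1] using h1) (by simp)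
    (by simp) (by rwa [e1])
    (fun j _ _ => anch_le (anch_zero (bf_free (h8 j) (hh j) (fs j))) (by simp))
    (fun j _ _ => anch_zero (df_self (h8 j) (hh j) hβ _))
  refine ⟨fun j hj hj' => anch_le (k1 j hj hj') (by simp [e2 j hj]), fun j hj hj' =>
    ⟨(k2 j hj hj').1, anch_mono (k2 j hj hj').2 (fun U => ?_) ?_⟩⟩
  · rw [Geo.intg, Geo.intg, Geo.Cl_zero, sub_zero]
  · simp only [mul_zero, add_zero]
    rw [mul_div_assoc, e2 j hj, ← mul_div_assoc]
    gcongr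

end Vale.Agent.P144Z.FM
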