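import Vale.Agent.P144Z.FM.Rad
import Vale.Agent.P144Z.FM.Zinf

/-!
The bounds on the constants of the flow in the geometries of the main estimate.
-/

namespace Vale.Agent.P144Z

open Finset Matrix

namespace FM

/-- The last step. -/
def LastOK (g : Geo) (L N : ℕ) (h β C : ℝ) : Prop :=
  ∀ s s' : g.St, g.Wf s → g.Wf s' → g.Free s' → ∀ D b e : ℝ, C * D ≤ 1 → C * b ≤ 1 → C * e ≤ 1 →
    Anch (sc L N) L (g.df (sc L N) h β s s') D → Anch (sc L N) L (g.bf (sc L N) h s) b →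
    Anch (sc L N) L (g.df (sc L N) h β s' (g.srcSt 0)) e →
      g.ExpId (covL (Dm g.A) (sc L N)) s ∧
      ∑ U, g.pn (sc L N) (h / 2) β U (Cl (evG (g.exM (covL (Dm g.A) (sc L N)))) s.H U -
        Cl (evG (g.exM (covL (Dm g.A) (sc L N)))) s'.H U) ≤ C * (D + b)

/-- The change of the comparison state at the scale `J`. -/
def SrcOK (g : Geo) (L J : ℕ) (h δ c : ℝ) : Prop :=
  ∀ s : g.St, g.Wf s → ∀ (z z' : g.K → ℝ) (a D : ℝ), 0 ≤ a → (∀ k, |z k - z' k| ≤ a) →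
    Anch (sc L J) L (g.df (sc L J) h (δ * sc L J / h ^ 2) s (g.srcSt z)) D →
      Anch (sc L J) L (g.df (sc L J) h (δ * sc L J / h ^ 2) s (g.srcSt z')) (D + c * δ * a)

theorem StepOK.mono {g : Geo} {L j : ℕ} {h h' β C C' : ℝ} (H : StepOK g L j h h' β C)
    (hC : 0 ≤ C) (hCC : C ≤ C') : StepOK g L j h h' β C' := by
  intro s s' w w' f D b e h1 h2 h3 a1 a2 a3
  have n : ∀ {f : Finset g.P → ℝ} {x : ℝ}, (∀ X, 0 ≤ f X) → Anch (sc L j) L f x → 0 ≤ x :=
    fun hf hx => (Finset.sum_nonneg fun X _ => mul_nonneg (hf X) (Real.exp_pos _).le).trans (hx 0)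
  have hD := n (df_nonneg _ _) a1
  have hb := n (bf_nonneg _) a2
  have he := n (df_nonneg _ _) a3
  obtain ⟨k1, k2, k3⟩ := H s s' w w' f D b e (by nlinarith) (by nlinarith) (by nlinarith) a1 a2 a3
  exact ⟨k1, anch_le k2 (by nlinarith), anch_le k3 (by nlinarith)⟩

theorem LastOK.mono {g : Geo} {L j : ℕ} {h β C C' : ℝ} (H : LastOK g L j h β C)
    (hC : 0 ≤ C) (hCC : C ≤ C') : LastOK g L j h β C' := by
  intro s s' w w' f D b e h1 h2 h3 a1 a2 a3
  have n : ∀ {f : Finset g.P → ℝ} {x : ℝ}, (∀ X, 0 ≤ f X) → Anch (sc L j) L f x → 0 ≤ x :=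
    fun hf hx => (Finset.sum_nonneg fun X _ => mul_nonneg (hf X) (Real.exp_pos _).le).trans (hx 0)
  have hD := n (df_nonneg _ _) a1
  have hb := n (bf_nonneg _) a2
  have he := n (df_nonneg _ _) a3
  obtain ⟨k1, k2⟩ := H s s' w w' f D b e (by nlinarith) (by nlinarith) (by nlinarith) a1 a2 a3
  exact ⟨k1, k2.trans (by nlinarith)⟩

variable {g : Geo} {L R J N : ℕ} {h : ℕ → ℝ} {δ c C : ℝ}

/-- The free flows above the scale `J`. -/
theorem free_all (hL : 1 ≤ L) (hδ : 0 < δ) (hp : Pre L R g J h) (hJN : J ≤ N) (hC : 1 ≤ C)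
    (hc : 0 ≤ c) (hcδ : C * (c * δ * 2) ≤ 1)
    (hS : ∀ j, J ≤ j → j < N → StepOK g L j (h j) (h (j + 1)) (δ * sc L J / h J ^ 2) C)
    (hl : LastOK g L N (h N) (δ * sc L J / h J ^ 2) C) (hd : SrcOK g L J (h J) δ c)
    {s : ℕ → g.St} (hs : ∀ j, s (j + 1) = g.step j (sc L j) (L * sc L j) 0 (s j))
    (ws : ∀ j, g.Wf (s j)) (fs : ∀ j, g.Free (s j)) {z : ℝ} (hz : |z| ≤ 2)
    (h0 : s J = g.srcSt fun _ => z) :
    (∀ j, J ≤ j → j ≤ N → Anch (sc L j) L
      (g.df (sc L j) (h j) (δ * sc L J / h J ^ 2) (s j) (g.srcSt 0)) (c * δ * 2)) ∧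
    (∀ j, J ≤ j → j < N → g.ExpId (covP (Dm g.A) (sc L j) (sc L (j + 1))) (s j) ∧
      Anch (sc L (j + 1)) (2 * L) (fun U => g.pn (sc L j) (h j / 2) (δ * sc L J / h J ^ 2) U
        (g.intg (sc L j) (L * sc L j) (s j) U)) (1 / 2 ^ (j - J))) ∧
    g.ExpId (covL (Dm g.A) (sc L N)) (s N) ∧
      ∑ U, g.pn (sc L N) (h N / 2) (δ * sc L J / h J ^ 2) U
        (Cl (evG (g.exM (covL (Dm g.A) (sc L N)))) (s N).H U) ≤ 1 := by
  have h8 : ∀ j, 1 ≤ sc L j := fun j => by have := eight_le_sc hL j; omega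
  have hβ := beta_pos hL hδ (hp.pos hL J) J
  have he : 0 ≤ c * δ * 2 := by positivity
  have a0 := hd (s J) (ws J) (fun _ => z) 0 2 0 (by norm_num) (fun _ => by simpa using hz)
    (by rw [← h0]; exact anch_zero (df_self (h8 J) (hp.pos hL J) hβ _))
  rw [zero_add] at a0
  obtain ⟨k1, k2⟩ := free_ind hL (hp.pos hL) hβ hC hS hs ws fs he hcδ a0
  have k3 := fun j hj hj' => anch_le (k1 j hj hj') (div_pow_le he (j - J))
  obtain ⟨k4, k5⟩ := hl (s N) (g.srcSt 0) (ws N) (Geo.wf_srcSt 0).1 (Geo.wf_srcSt 0).2 _ 0 0 hcδ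
    (by simp) (by simp) (k3 N hJN le_rfl) (anch_zero (bf_free (h8 N) (hp.pos hL N) (fs N)))
    (anch_zero (df_self (h8 N) (hp.pos hL N) hβ _))
  simp only [Geo.Cl_zero, sub_zero, add_zero] at k5
  exact ⟨k3, k2, k4, k5.trans hcδ⟩

theorem flowB (hL : 1 ≤ L) (hδ : 0 < δ) (hp : Pre L R g J h) (hgJ : g.J = J) (hJN : J ≤ N)
    (hN : 16 * sc L N ≤ g.M) (hC : 1 ≤ C) (hc : 0 ≤ c) (hcδ : C * (c * δ * 2) ≤ 1)
    (hS : ∀ j, J ≤ j → j < N → StepOK g L j (h j) (h (j + 1)) (δ * sc L J / h J ^ 2) C)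
    (hl : LastOK g L N (h N) (δ * sc L J / h J ^ 2) C) (hd : SrcOK g L J (h J) δ c)
    (hinv : ∀ v, Dm g.A *ᵥ v = 0 → v = 0) {q : Par} {a w z : ℝ} (ha : 0 ≤ a)
    (H : EFull g L q J h δ a) (H0 : EFull g L par0 J h δ 0) (hw : 0 < w)
    (hwh : ∀ j, w * L * h j ^ 2 ≤ δ) (hz : |z| ≤ 2)
    (hzz : ∀ k, |(g.flow L q 0 J).z k - z| ≤ 2 * a / δ / 2 ^ J)
    (hT : C * ((1 + 2 * c) * a + 4 * (C * a) + a) ≤ 1) {a' b' : ℝ}
    (ha' : 2 * (C * ((1 + 2 * c) * a + 4 * (C * a) + a)) ≤ a') (hb' : 2 ≤ b') :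
    g.FlowB L q N (z / (-2 * tc)) w a' b' := by
  have h8 : ∀ j, 1 ≤ sc L j := fun j => by have := eight_le_sc hL j; omega
  have hs0 : (0 : ℝ) < sc L J := by exact_mod_cast h8 J
  have hβ := beta_pos hL hδ (hp.pos hL J) J
  have hL' : (1 : ℝ) ≤ L := by exact_mod_cast hL
  have hwβ : w * sc L J ≤ δ * sc L J / h J ^ 2 := by
    rw [le_div_iff₀ (pow_pos (hp.pos hL J) 2), mul_right_comm]
    refine mul_le_mul_of_nonneg_right (le_trans ?_ (hwh J)) hs0.le
    rw [mul_assoc]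
    exact mul_le_mul_of_nonneg_left (le_mul_of_one_le_left (by positivity) hL') hw.le
  have hw' : 0 < w * sc L J := by positivity
  have htc := tc_lo
  set Z := z / (-2 * tc) with hZ
  have wq := Geo.wf_flow hp.ok L q 0
  have w0 := Geo.wf_flow hp.ok L par0 0
  have f0 := Geo.free_flow hp.ok L
  have e0 := flow0 hL hδ hp H0 J le_rfl
  have ht : ∀ j, (g.flow L par0 0 (j + 1)).scB Z =
      g.step j (sc L j) (L * sc L j) 0 ((g.flow L par0 0 j).scB Z) := fun j => by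
    rw [flow_succ, Geo.step_scB (w0 j)]
  have e1 : (g.flow L par0 0 J).scB Z = g.srcSt fun _ => z := by
    rw [e0, Geo.scB_srcSt]
    congr 1
    funext k
    exact div_mul_cancel₀ _ (by linarith)
  obtain ⟨-, p2, p3, -⟩ := free_all hL hδ hp hJN hC hc hcδ hS hl hd (flow_succ L par0) w0 f0
    (z := -2 * tc) (by have := tc_hi; rw [abs_le]; constructor <;> linarith) e0
  obtain ⟨t1, t2, -, t4⟩ := free_all hL hδ hp hJN hC hc hcδ hS hl hd ht (fun j => (w0 j).scB Z)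
    (fun j => (f0 j).scB Z) hz e1
  have hCa : 0 ≤ C * a := by positivity
  have hca : 0 ≤ (1 + 2 * c) * a := by positivity
  have hT1 : C * ((1 + 2 * c) * a + 4 * (C * a)) ≤ 1 := by nlinarith
  have hT2 : C * a ≤ 1 := by nlinarith
  have hbf : ∀ j ≤ N, Anch (sc L j) L (g.bf (sc L j) (h j) (g.flow L q 0 j)) (a / 2 ^ j / 2 ^ j) :=
    fun j hj => H.bf j ((Nat.mul_le_mul_left _ (sc_mono hL hj)).trans hN)
  obtain ⟨d1, d2⟩ := diff_ind hC hS (flow_succ L q) ht wq (fun j => (w0 j).scB Z)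
    (fun j => (f0 j).scB Z) hca ha ((mul_le_mul_of_nonneg_left (div_pow_le (by positivity) J)
      (by linarith)).trans hT1) hT2 hcδ (by
        rw [e1]
        refine anch_le (hd _ (wq J) _ _ _ _ (by positivity) hzz (H.df J le_rfl)) (le_of_eq ?_)
        field_simp) (fun j _ hj => hbf j hj.le) fun j hj hj' => t1 j hj hj'.le
  obtain ⟨l1, l2⟩ := hl _ _ (wq N) ((w0 N).scB Z) ((f0 N).scB Z) _ _ _
    ((mul_le_mul_of_nonneg_left (div_pow_le (by positivity) N) (by linarith)).trans hT1)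
    ((mul_le_mul_of_nonneg_left ((div_pow_le (by positivity) N).trans (div_pow_le ha N))
      (by linarith)).trans hT2) hcδ (d1 N hJN le_rfl) (hbf N le_rfl) (t1 N hJN le_rfl)
  have aP := fun j => covP_anti (Vale.Agent.P144Z.C.Dm_anti g.A) (sc L j) (L * sc L j)
  have aL := covL_anti (Vale.Agent.P144Z.C.Dm_anti g.A) (sc L N)
  have hh : ∀ j, 0 < h j / 2 := fun j => half_pos (hp.pos hL j)
  have ha2 : 2 * a ≤ a' := by nlinarith
  refine ⟨hinv, ⟨H.init, fun j hj => ?_, l1⟩, ⟨H0.init, fun j hj => ?_, p3⟩, fun j hj => ?_,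
    fun j hj => early0 hL hδ hp H0 j (hgJ ▸ hj), fun j hj hj' => ?_, fun j hj hj' => ?_, ?_, ?_⟩
  · rcases lt_or_ge j J with h1 | h1
    · exact H.ex j h1
    · exact (d2 j h1 hj).1
  · rcases lt_or_ge j J with h1 | h1
    · exact H0.ex j h1
    · exact (p2 j h1 hj).1
  · exact anch_le (early1 hL hp ha H hw hwh j (hgJ ▸ hj)) (by gcongr)
  · obtain ⟨i, rfl⟩ : ∃ i, j = i + 1 := ⟨j - 1, by omega⟩
    refine anch_mono (d2 i (by omega) (by omega)).2 (fun U => ?_) ?_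
    · rw [cs_succ, cs_succ, Geo.scB_noF, Geo.intg, Geo.intg, ← Geo.Cl_scB (w0 i) Z (aP i),
        ← map_sub, hgJ]
      exact ps_le hp.ok.sign (h8 i) (hh i) hw' hwβ
        (Subalgebra.sub_mem _ ((wq i).Cl_mem (aP i) U) (((w0 i).scB Z).Cl_mem (aP i) U))
    · rw [pow_succ, div_le_div_iff₀ (by positivity) (by positivity)]
      have : (0 : ℝ) < 2 ^ i := by positivity
      nlinarith
  · obtain ⟨i, rfl⟩ : ∃ i, j = i + 1 := ⟨j - 1, by omega⟩
    refine anch_mono (t2 i (by omega) (by omega)).2 (fun U => ?_) ?_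
    · rw [cs_succ, Geo.scB_noF, Geo.intg, ← Geo.Cl_scB (w0 i) Z (aP i), hgJ]
      exact ps_le hp.ok.sign (h8 i) (hh i) hw' hwβ (((w0 i).scB Z).Cl_mem (aP i) U)
    · rw [show i + 1 - g.J = i - J + 1 by omega, pow_succ,
        div_le_div_iff₀ (by positivity) (by positivity)]
      have : (0 : ℝ) < 2 ^ (i - J) := by positivity
      nlinarith
  · refine (Finset.sum_le_sum fun U _ => ?_).trans (l2.trans ?_)
    · rw [Geo.scB_noF, Geo.last, Geo.last, ← Geo.Cl_scB (w0 N) Z aL, ← map_sub, hgJ]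
      exact ps_le hp.ok.sign (h8 N) (hh N) hw' hwβ
        (Subalgebra.sub_mem _ ((wq N).Cl_mem aL U) (((w0 N).scB Z).Cl_mem aL U))
    · calc _ ≤ C * (((1 + 2 * c) * a + 4 * (C * a)) / 2 ^ N + a / 2 ^ N) :=
            mul_le_mul_of_nonneg_left (add_le_add le_rfl (div_pow_le (by positivity) N))
              (by linarith)
        _ = C * ((1 + 2 * c) * a + 4 * (C * a) + a) / 2 ^ N := by ring
        _ ≤ a' / 2 ^ N := div_le_div_of_nonneg_right (by nlinarith) (by positivity)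
  · refine (Finset.sum_le_sum fun U _ => ?_).trans (t4.trans (by linarith))
    rw [Geo.scB_noF, Geo.last, ← Geo.Cl_scB (w0 N) Z aL, hgJ]
    exact ps_le hp.ok.sign (h8 N) (hh N) hw' hwβ (((w0 N).scB Z).Cl_mem aL U)

end FM

open FM

set_option maxHeartbeats 800000 in
theorem flowStmt : FlowStmt := by
  obtain ⟨L₁, hL₁, hE⟩ := early_all
  obtain ⟨L₂, hS⟩ := exists_steps
  obtain ⟨C₀, -, hgap⟩ := gap_anti
  obtain ⟨L₃, hlast⟩ := Geo.step_last C₀
  obtain ⟨Cs, hCs, hsrc⟩ := Geo.df_srcSt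
  refine ⟨max L₁ (max L₂ L₃), fun L hL => ?_⟩
  have hL1 : L₁ ≤ L := (le_max_left _ _).trans hL
  have hL0 : (0 : ℝ) < L := by exact_mod_cast (by omega : 0 < L)
  obtain ⟨CG, hCG, hS⟩ := hS L ((le_max_left _ _).trans ((le_max_right _ _).trans hL))
  obtain ⟨CL, hCL, hlast⟩ := hlast L ((le_max_right _ _).trans ((le_max_right _ _).trans hL))
  set C := max CG CL with hC
  have hC1 : 1 ≤ C := hCG.trans (le_max_left _ _)
  set c := Cs * Real.exp L with hc
  have hc0 : 0 < c := by positivity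
  obtain ⟨δ, hδ, hδm, A, hA, η₀, hη₀, hη₁, hE, hE0⟩ := hE L hL1 (1 / (C * (c * 2))) (by positivity)
  have hcδ : C * (c * δ * 2) ≤ 1 := by
    rw [le_div_iff₀ (by positivity)] at hδm
    linarith
  set T := C * ((1 + 2 * c) * A + 4 * (C * A) + A) with hT
  have hT0 : 0 < T := by positivity
  have hAδ : 0 < A / δ := by positivity
  refine ⟨2 * T + 3 * (A / δ) + 7, by linarith, min η₀ (min (1 / T) (δ / (4 * A))), by positivity,
    fun η hη hηle R => ?_⟩
  have hη1 : η ≤ η₀ := hηle.trans (min_le_left _ _)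
  have hη2 : η * T ≤ 1 :=
    (le_div_iff₀ hT0).1 (hηle.trans ((min_le_right _ _).trans (min_le_left _ _)))
  have hη3 : η * (4 * A) ≤ δ :=
    (le_div_iff₀ (by positivity)).1 (hηle.trans ((min_le_right _ _).trans (min_le_right _ _)))
  obtain ⟨δ₀, hδ₀, hE⟩ := hE η hη hη1 R
  refine ⟨δ₀, hδ₀, fun q hR hq => ?_⟩
  subst hR
  obtain ⟨z, hz1, hz2⟩ := exists_zinf (L := L) (by omega) hq.ok hδ (hE q rfl hq)
  have htc := tc_lo
  have htc' := tc_hi
  have hx := abs_le.1 hq.x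
  have hZ := abs_le.1 hq.Z
  have hxZ : |q.x * q.Z - tc| ≤ 5 / 2 * η := by
    have := hq.ok.Z_hi
    have := hq.ok.Z_lo
    rw [abs_le]; constructor <;> nlinarith
  have e1 : 2 * (A * η) / δ = 2 * (A / δ * η) := by ring
  have h1 : 2 * (A * η) / δ ≤ 1 / 2 := by rw [div_le_iff₀ hδ]; linarith
  have hz5 : |z| ≤ 2 := by
    have := abs_le.1 hz1
    have := abs_le.1 hxZ
    rw [abs_le]; constructor <;> linarith
  have hz3 := abs_le.1 hz1
  have hz4 := abs_le.1 hxZ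
  refine ⟨z / (-2 * tc), ?_, fun N₀ Λ hΛ => ?_⟩
  · have h2 : 0 ≤ A / δ * η := by positivity
    rw [div_sub_one (by linarith), abs_div, div_le_iff₀ (abs_pos.2 (by linarith)),
      abs_of_neg (by linarith : -2 * tc < 0), abs_le]
    have h3 : 0 ≤ T * η := by positivity
    constructor <;> nlinarith
  obtain ⟨p₁, p₂, γ, g0, g1, g2, hS⟩ := hS N₀ Λ hΛ
  refine ⟨δ / (L * ((L : ℝ) ^ 2 * 2 ^ p₂) ^ 2), by positivity, max p₂ 1, fun J hJ r hr1 hr2 => ?_⟩
  have hJ1 : p₂ ≤ J := (le_max_left _ _).trans hJ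
  have hJ2 : 1 ≤ J := (le_max_right _ _).trans hJ
  obtain ⟨M₁, hgap⟩ := hgap Λ (Λ * r)
  refine ⟨max M₁ (max (16 * sc L J + 1) (16 * (q.R + 1))), fun g hgJ hg hM N hN hN' => ?_⟩
  have hM1 : 16 * sc L J + 1 ≤ g.M := (le_max_left _ _).trans ((le_max_right _ _).trans hM)
  have hp := pre_hr (p₁ := p₁) (R := q.R) (by omega : 1 ≤ L) g0 g1 g2 hJ1 hg hgJ hr1 (by omega)
    ((le_max_right _ _).trans ((le_max_right _ _).trans hM))
  have hJN : J ≤ N := by
    by_contra hn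
    have := sc_mono (L := L) (by omega) (by omega : N + 1 ≤ J)
    omega
  obtain ⟨A', hA', hanti⟩ := hg.cl
  have hgap := hgap g.M ((le_max_left _ _).trans hM) g.A A' 0 r hA' (r_ge (by omega) hJ2 hr1)
    (Nat.le_mul_of_pos_left _ hΛ) le_rfl hanti
  simp only [RN.l2sq_univ] at hgap
  have hβ := beta_pos (by omega : 1 ≤ L) hδ (hp.pos (by omega) J) J
  have h8 := fun j => eight_le_sc (L := L) (by omega) j
  have e2 : C * ((1 + 2 * c) * (A * η) + 4 * (C * (A * η)) + A * η) = η * T := by rw [hT]; ring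
  refine flowB (C := C) (c := c) (by omega) hδ hp hgJ hJN hN hC1 hc0.le hcδ
    (fun j hj hj' => (hS J hJ1 hJ2 r hr1 hr2 g hgJ hg _ hβ j hj
      ((Nat.mul_le_mul_left _ (sc_mono (by omega) hj')).trans hN)).mono (by linarith)
        (le_max_left _ _))
    (LastOK.mono (hlast g hg.ok.sign (sc L N) (h8 N) (by omega) (by rwa [← sc_succ])
      (fun v => by rw [← mulVec_mulVec]; exact hgap _) _ _ (hp.lo N) hβ) (by linarith)
        (le_max_right _ _))
    (hsrc L g hg.ok.sign (sc L J) (h8 J) (by omega) (sep_mono hp.sep (by omega)) _ δ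
      (hp.pos (by omega) J) hδ)
    (fun v hv => ?_) (by positivity) (hE q rfl hq g J _ hp) (hE0 _ g J _ hp) (by positivity)
    (fun j => ?_) hz5 (hz2 g J _ hp) (by rwa [e2]) ?_ (by linarith)
  · have := hgap v
    rw [hv, dotProduct_zero, mul_zero] at this
    exact dotProduct_self_eq_zero.1 (le_antisymm this (Vale.Agent.P144Z.C.dot_nonneg v))
  · have h2 := hr_le_top (L := L) (p₁ := p₁) (p₂ := p₂) (J := J) g0 g1 j
    have h3 := hp.pos (by omega) j
    rw [div_mul_eq_mul_div, div_mul_eq_mul_div, div_le_iff₀ (by positivity), mul_assoc]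
    gcongr
  · rw [e2]
    have h2 : 0 ≤ A / δ * η := by positivity
    nlinarith

end Vale.Agent.P144Z
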