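import Vale.Agent.P144Z.FM.Late
import Vale.Agent.P144Z.FM.Early2

/-!
The radii of the norms along the flow.
-/

namespace Vale.Agent.P144Z.FM

open Finset Matrix

/-- The radius at the scale `j`. -/
noncomputable def hr (L p₁ p₂ J : ℕ) (γ : ℝ) (j : ℕ) : ℝ :=
  (L : ℝ) ^ 2 * 2 ^ min j p₂ * γ ^ min (j - J) p₁

variable {L p₁ p₂ J : ℕ} {γ : ℝ}

theorem hr_le (h0 : 0 < γ) (h1 : γ ≤ 1) (j : ℕ) :
    hr L p₁ p₂ J γ j ≤ (L : ℝ) ^ 2 * 2 ^ min j p₂ :=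
  mul_le_of_le_one_right (by positivity) (pow_le_one₀ h0.le h1)

theorem hr_le_top (h0 : 0 < γ) (h1 : γ ≤ 1) (j : ℕ) : hr L p₁ p₂ J γ j ≤ (L : ℝ) ^ 2 * 2 ^ p₂ :=
  (hr_le h0 h1 j).trans (mul_le_mul_of_nonneg_left
    (pow_le_pow_right₀ one_le_two (min_le_right _ _)) (by positivity))

theorem hr_early {j : ℕ} (hj : j ≤ J) : hr L p₁ p₂ J γ j = (L : ℝ) ^ 2 * 2 ^ min j p₂ := by
  rw [hr, Nat.sub_eq_zero_of_le hj, Nat.zero_min, pow_zero, mul_one]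

theorem hr_lo (h0 : 0 < γ) (h1 : γ ≤ 1) (h2 : 1 ≤ 2 ^ p₂ * γ ^ p₁) (hJ : p₂ ≤ J) (j : ℕ) :
    (L : ℝ) ^ 2 ≤ hr L p₁ p₂ J γ j := by
  rcases le_total j J with hj | hj
  · rw [hr_early hj]
    exact le_mul_of_one_le_right (by positivity) (one_le_pow₀ one_le_two)
  · rw [hr, min_eq_right (hJ.trans hj), mul_assoc]
    refine le_mul_of_one_le_right (by positivity) (h2.trans ?_)
    exact mul_le_mul_of_nonneg_left (pow_le_pow_of_le_one h0.le h1 (min_le_right _ _))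
      (by positivity)

theorem hr_mid (hJ : p₂ ≤ J) {j : ℕ} (hj : J ≤ j) (hj' : j < J + p₁) :
    hr L p₁ p₂ J γ (j + 1) = hr L p₁ p₂ J γ j * γ := by
  rw [hr, hr, min_eq_right (by omega : p₂ ≤ j + 1), min_eq_right (by omega : p₂ ≤ j),
    show min (j + 1 - J) p₁ = min (j - J) p₁ + 1 by omega, pow_succ γ]
  ring

theorem hr_late (hJ : p₂ ≤ J) {j : ℕ} (hj : J + p₁ ≤ j) :
    hr L p₁ p₂ J γ (j + 1) = hr L p₁ p₂ J γ j := by
  rw [hr, hr, min_eq_right (by omega : p₂ ≤ j + 1), min_eq_right (by omega : p₂ ≤ j),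
    show min (j + 1 - J) p₁ = min (j - J) p₁ by omega]

theorem pre_hr (hL : 1 ≤ L) (h0 : 0 < γ) (h1 : γ ≤ 1) (h2 : 1 ≤ 2 ^ p₂ * γ ^ p₁) (hJ : p₂ ≤ J)
    {g : Geo} {N₀ Λ r R : ℕ} (hg : g.Nice N₀ Λ r) (hgJ : g.J = J) (hr1 : 8 * sc L J ≤ r)
    (hM : 16 * sc L J ≤ g.M) (hR : 16 * (R + 1) ≤ g.M) : Pre L R g J (hr L p₁ p₂ J γ) where
  ok := hg.ok
  on := hg.on
  J_le := hgJ.ge
  M_le := hM
  R_le := hR
  sep := sep_mono hg.sep hr1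
  h0 := by simp [hr]
  lo := hr_lo h0 h1 h2 hJ
  h1 j hj := by
    rw [hr_early hj.le, hr_early (J := J) (by omega)]
    exact mul_le_mul_of_nonneg_left (pow_le_pow_right₀ one_le_two (by omega)) (by positivity)
  h2 j hj := by
    rw [hr_early hj.le, hr_early (J := J) (by omega), mul_left_comm, ← pow_succ']
    exact mul_le_mul_of_nonneg_left (pow_le_pow_right₀ one_le_two (by omega)) (by positivity)
  hi j := by
    have h3 : (1 : ℝ) ≤ L := by exact_mod_cast hL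
    exact (hr_le h0 h1 j).trans (mul_le_mul (pow_le_pow_right₀ h3 (by norm_num))
      (pow_le_pow_right₀ one_le_two (min_le_left _ _)) (by positivity) (by positivity))

theorem r_ge {L J r : ℕ} (hL : 4 ≤ L) (hJ : 1 ≤ J) (hr1 : 8 * sc L J ≤ r) : 256 ≤ r := by
  have h1 := sc_mono (L := L) (by omega) hJ
  have h2 : sc L 1 = 8 * L := by simp [sc]
  omega

theorem exists_steps : ∃ L₀ : ℕ, ∀ L ≥ L₀, ∃ C : ℝ, 1 ≤ C ∧ ∀ N₀ Λ : ℕ, 1 ≤ Λ →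
    ∃ (p₁ p₂ : ℕ) (γ : ℝ), 0 < γ ∧ γ ≤ 1 ∧ 1 ≤ 2 ^ p₂ * γ ^ p₁ ∧ ∀ J, p₂ ≤ J → 1 ≤ J → ∀ r : ℕ,
      8 * sc L J ≤ r → r ≤ 8 * sc L (J + 1) → ∀ g : Geo, g.J = J → g.Nice N₀ Λ r → ∀ β, 0 < β →
        ∀ j, J ≤ j → 16 * sc L (j + 1) ≤ g.M →
          StepOK g L j (hr L p₁ p₂ J γ j) (hr L p₁ p₂ J γ (j + 1)) β C := by
  obtain ⟨C₀, hC₀, L₁, hG⟩ := Geo.step_gen
  obtain ⟨C₁, hC₁, hS⟩ := Geo.sch_late
  refine ⟨max L₁ (max 64 ⌈(C₀ * C₁ ^ 2) ^ 2⌉₊), fun L hL => ?_⟩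
  have hL64 : 64 ≤ L := (le_max_left _ _).trans ((le_max_right _ _).trans hL)
  have hLc : (C₀ * C₁ ^ 2) ^ 2 ≤ L :=
    Nat.ceil_le.1 ((le_max_right _ _).trans ((le_max_right _ _).trans hL))
  have hL1 : (1 : ℝ) ≤ L := by exact_mod_cast (by omega : 1 ≤ L)
  have hL0 : (0 : ℝ) < L := by linarith
  obtain ⟨C, hC, hG⟩ := hG L ((le_max_left _ _).trans hL)
  refine ⟨C, hC, fun N₀ Λ hΛ => ?_⟩
  obtain ⟨p, hS⟩ := hS Λ L hL64
  have hN : (1 : ℝ) ≤ C₀ * (max N₀ 1 : ℕ) :=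
    one_le_mul_of_one_le_of_one_le hC₀ (by exact_mod_cast le_max_right _ _)
  set ρ := (√(C₀ * (max N₀ 1 : ℕ)))⁻¹ with hρ
  have hρ0 : 0 < ρ := by positivity
  have hρ1 : ρ ≤ 1 := inv_le_one_of_one_le₀ (Real.one_le_sqrt.2 hN)
  have hs1 : 1 ≤ √(L : ℝ) := Real.one_le_sqrt.2 hL1
  have hγ0 : 0 < ρ / √L := by positivity
  have hγ1 : ρ / √L ≤ 1 := (div_le_self hρ0.le hs1).trans hρ1
  obtain ⟨p₂, hp₂⟩ := pow_unbounded_of_one_lt ((ρ / √L) ^ (8 * ((p + 1) * Λ) + 1))⁻¹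
    (one_lt_two (α := ℝ))
  have hp₂' : 1 ≤ 2 ^ p₂ * (ρ / √L) ^ (8 * ((p + 1) * Λ) + 1) := by
    rw [inv_lt_iff_one_lt_mul₀ (by positivity)] at hp₂
    exact hp₂.le
  refine ⟨8 * ((p + 1) * Λ) + 1, p₂, ρ / √L, hγ0, hγ1, hp₂',
    fun J hJ hJ1 r hr1 hr2 g hgJ hg β hβ j hj hM => ?_⟩
  have hlo := hr_lo (L := L) hγ0 hγ1 hp₂' hJ
  have hpos : ∀ i, 0 < hr L (8 * ((p + 1) * Λ) + 1) p₂ J (ρ / √L) i := fun i =>
    (pow_pos hL0 2).trans_le (hlo i)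
  have h8 := eight_le_sc (L := L) (by omega) j
  rw [sc_succ] at hM
  have hG := hG g hg.ok.sign j (sc L j) (fun _ _ => hgJ ▸ hj) h8 hM
  by_cases hm : j < J + (8 * ((p + 1) * Λ) + 1)
  · obtain ⟨Z, hZ, hZ1, hZ2⟩ := hg.card
    have e : √((L * sc L j : ℕ) / (sc L j : ℝ)) = √L := by
      have : (0 : ℝ) < sc L j := by positivity
      congr 1
      push_cast
      field_simp
    refine hG (max N₀ 1) (le_max_right _ _) ⟨Z, hZ.trans (le_max_left _ _),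
      fun f hf => ⟨f, hZ1 f hf, by rw [tdist_self]; omega⟩,
      fun k => ⟨_, hZ2 k, by rw [tdist_self]; omega⟩⟩ √L ρ _ _ β (by positivity)
      (fun z => e ▸ Geo.sch_triv (by omega) (Nat.le_mul_of_pos_left _ (by omega)) z) (hlo j)
      (hpos _) ?_ hρ0 ?_ ?_ hβ
    · rw [hr_mid hJ hj hm]
      nlinarith [hpos j]
    · rw [hr_mid hJ hj hm]
      apply le_of_eq
      field_simp
    · rw [hρ, inv_pow, Real.sq_sqrt (by linarith), mul_inv_cancel₀ (by linarith)]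
  · obtain ⟨A', hA', -⟩ := hg.cl
    have h1 : (p + 1) * (Λ * r) ≤ sc L j := by
      have a1 : 8 * ((p + 1) * Λ) ≤ L ^ (8 * ((p + 1) * Λ)) :=
        (Nat.lt_pow_self (by omega : 1 < L)).le
      calc (p + 1) * (Λ * r) ≤ (p + 1) * (Λ * (8 * sc L (J + 1))) := by gcongr
        _ = 8 * ((p + 1) * Λ) * sc L (J + 1) := by ring
        _ ≤ L ^ (8 * ((p + 1) * Λ)) * sc L (J + 1) := by gcongr
        _ = sc L (J + (8 * ((p + 1) * Λ) + 1)) := by unfold sc; ring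
        _ ≤ sc L j := sc_mono (by omega) (by omega)
    have h2 : Λ * r ≤ sc L j := by nlinarith
    have h3 : p * (Λ * r) ≤ sc L j := by nlinarith
    have hκ : 0 < C₁ * √(√((L : ℝ)⁻¹)) := by positivity
    refine hG 1 le_rfl ⟨{0}, by simp, fun f hf => ⟨0, by simp, (hA'.near f hf).trans h2⟩,
      fun k => ⟨0, by simp, (hg.src k).trans h2⟩⟩ _ _ _ _ β hκ.le
      (hS g A' 0 (Λ * r) r hA' (r_ge (by omega) hJ1 hr1) (Nat.le_mul_of_pos_left _ hΛ) le_rfl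
        (sc L j) h3 h2 (by omega)) (hlo j) (hpos _) ?_ hκ ?_ ?_ hβ
    · rw [hr_late hJ (by omega)]
      linarith [hpos j]
    · rw [hr_late hJ (by omega), mul_comm]
    · have a1 : C₀ * C₁ ^ 2 ≤ √L := Real.le_sqrt_of_sq_le hLc
      rw [mul_pow, Real.sq_sqrt (by positivity), Real.sqrt_inv, Nat.cast_one, mul_one, ← mul_assoc,
        mul_inv_le_iff₀ (by positivity), one_mul]
      exact a1

end Vale.Agent.P144Z.FM
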